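import Mathlib
import Vale.Agent.P121.Defs
import Vale.Agent.P121.Geom

open MeasureTheory
open scoped ENNReal

namespace Vale.Agent.Results.P121.NoMonge

/-- There is an absolutely continuous probability measure on three-dimensional space with finite
Coulomb transport value for which every Monge plan costs strictly more than that value. -/
theorem result :
    ∃ μ : Measure (EuclideanSpace ℝ (Fin 3)),
      IsProbabilityMeasure μ ∧ μ ≪ volume ∧ Vale.Agent.P121.kantorovichValue μ < ∞ ∧
      ∀ T₂ T₃ : EuclideanSpace ℝ (Fin 3) → EuclideanSpace ℝ (Fin 3),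
        Measurable T₂ → Measurable T₃ → μ.map T₂ = μ → μ.map T₃ = μ →
        Vale.Agent.P121.kantorovichValue μ
          < ∫⁻ x, Vale.Agent.P121.coulomb (x, T₂ x, T₃ x) ∂μ := by
  obtain ⟨r, R⟩ := Vale.Agent.P121.exists_radius
  exact ⟨R.cert.μ, inferInstance, R.cert.μ_ac, R.cert.value_lt_top,
    fun T₂ T₃ h₂ h₃ e₂ e₃ => R.cert.no_monge T₂ T₃ h₂ h₃ e₂ e₃⟩

end Vale.Agent.Results.P121.NoMonge
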